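import Vale.Agent.P154.Assembly
import Vale.Agent.P154.Aux3
import Vale.Agent.P154.Aux4
import Vale.Agent.P154.Anti.RowsFinal
import Vale.Agent.P154.Anti.RegFinal
import Vale.Agent.P154.Anti.D4Upper
import Vale.Agent.P154.Anti.D4Rows

/-!
P154: the reconstruction threshold of the Potts channels with three and four states.
-/

namespace Vale.Agent.Results.P154.FullThreshold

open Vale.Agent.P154
open scoped ENNReal NNReal

/-- For three states and every `lam` in `[-1/2, 1]`, and for four states and every `lam` in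
`[0, 1]`: reconstruction holds exactly when `d * lam ^ 2 > 1`, nonreconstruction exactly when
`d * lam ^ 2 ≤ 1`, on the `d`-ary trees and on the Poisson trees; for `0 ≤ lam` also for every
offspring law which can branch; the distances are nonincreasing. -/
theorem result : ∀ (q : ℕ) (lam : ℝ), (q = 3 ∧ -1 / 2 ≤ lam ∨ q = 4 ∧ 0 ≤ lam) → lam ≤ 1 →
    (∀ d : ℕ, 2 ≤ d →
      (Reconstruction q lam (regularLaw d) ↔ 1 < (d : ℝ) * lam ^ 2) ∧
      (NonReconstruction q lam (regularLaw d) ↔ (d : ℝ) * lam ^ 2 ≤ 1)) ∧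
    (∀ d : ℝ≥0, 0 < d →
      (Reconstruction q lam (poissonLaw d) ↔ 1 < (d : ℝ) * lam ^ 2) ∧
      (NonReconstruction q lam (poissonLaw d) ↔ (d : ℝ) * lam ^ 2 ≤ 1)) ∧
    (∀ ν : PMF ℕ, 0 ≤ lam → (∃ k, 2 ≤ k ∧ ν k ≠ 0) →
      (Reconstruction q lam ν ↔ 1 < offspringMean ν * ENNReal.ofReal (lam ^ 2)) ∧
      (NonReconstruction q lam ν ↔ offspringMean ν * ENNReal.ofReal (lam ^ 2) ≤ 1)) ∧
    (∀ ν : PMF ℕ, Antitone (reconDist q lam ν)) :=
  Assembly.full Aux3.ferroCert_three Aux4.ferroCert_four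
    (fun _ h0 h1 _ hd => Anti.antiPoisson h0 h1 hd)
    (fun _ h0 h1 _ hd => Anti.antiRegular h0 h1 hd)
    (Anti.antiSmall_of_rows Anti.d4Rows Anti.d4Rows_ok)

end Vale.Agent.Results.P154.FullThreshold
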