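import Vale.Agent.P154.Aux3
import Vale.Agent.P154.Aux4
import Vale.Agent.P154.Mono

/-!
P154: the ferromagnetic reconstruction threshold of the Potts channels with three and four states.
-/

namespace Vale.Agent.Results.P154.PottsThreshold

open Vale.Agent.P154
open scoped ENNReal NNReal

/-- For three or four states and `0 ≤ lam ≤ 1`: reconstruction holds exactly when
`d * lam ^ 2 > 1` and nonreconstruction exactly when `d * lam ^ 2 ≤ 1`, on the `d`-ary tree and on
the Poisson tree; the same for every offspring law which can branch; the distances are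
nonincreasing. -/
theorem result : ∀ (q : ℕ) (lam : ℝ), (q = 3 ∨ q = 4) → 0 ≤ lam → lam ≤ 1 →
    (∀ d : ℕ, 2 ≤ d →
      (Reconstruction q lam (regularLaw d) ↔ 1 < (d : ℝ) * lam ^ 2) ∧
      (NonReconstruction q lam (regularLaw d) ↔ (d : ℝ) * lam ^ 2 ≤ 1)) ∧
    (∀ d : ℝ≥0, 0 < d →
      (Reconstruction q lam (poissonLaw d) ↔ 1 < (d : ℝ) * lam ^ 2) ∧
      (NonReconstruction q lam (poissonLaw d) ↔ (d : ℝ) * lam ^ 2 ≤ 1)) ∧
    (∀ ν : PMF ℕ, (∃ k, 2 ≤ k ∧ ν k ≠ 0) →
      (Reconstruction q lam ν ↔ 1 < offspringMean ν * ENNReal.ofReal (lam ^ 2)) ∧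
      (NonReconstruction q lam ν ↔ offspringMean ν * ENNReal.ofReal (lam ^ 2) ≤ 1)) ∧
    (∀ ν : PMF ℕ, Antitone (reconDist q lam ν)) := by
  intro q lam hq h0 h1
  have hcert : FerroCert q := by
    rcases hq with rfl | rfl
    · exact Aux3.ferroCert_three
    · exact Aux4.ferroCert_four
  have h2 : 2 ≤ q := by omega
  refine ⟨fun d hd => ?_, fun d hd => ?_, fun ν hν => ?_, fun ν => ?_⟩
  · exact (threshold_regular h2 hcert h0 h1 hd).symm
  · exact (threshold_poisson h2 hcert h0 h1 hd).symm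
  · exact (threshold_of_cert h2 hcert h0 h1 hν).symm
  · refine reconDist_antitone h2 (le_trans ?_ h0) h1 ν
    have : (2 : ℝ) ≤ q := by exact_mod_cast h2
    exact div_nonpos_of_nonpos_of_nonneg (by norm_num) (by linarith)

end Vale.Agent.Results.P154.PottsThreshold
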